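import Vale.Agent.P004X.Aw
import Vale.Agent.P004.H3.SumGk

/-!
# P004X: exponential sums with the majorant `Aw`
-/

open Real Set
open scoped ENNReal

namespace P004G

variable [Crv]

namespace AW

/-- `∑ Aw(n)² d(n)^K e^{-π n U} ≪ (1/θ)^A U^{-1-θ}` -/
theorem sum_exp (K : ℕ) : ∃ C : ℝ, 0 < C ∧ ∃ A : ℕ, ∀ θ U : ℝ, 0 < θ → θ ≤ 1 →
    0 < U →
    (Summable fun n : ℕ => Aw n ^ 2 * dv n ^ K * Real.exp (-π * n * U)) ∧
    ∑' n : ℕ, Aw (n + 1) ^ 2 * dv (n + 1) ^ K * Real.exp (-π * ((n + 1 : ℕ) : ℝ) * U) ≤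
      C * (1 / θ) ^ A * U ^ (-1 - θ) := by
  obtain ⟨C, hC, A, h⟩ := div1 K
  refine ⟨2 * C, by positivity, A, fun θ U hθ hθ1 hU => ?_⟩
  have hdv : ∀ n : ℕ, 0 ≤ Aw n ^ 2 * dv n ^ K := fun n => by
    have : 0 ≤ dv n := by unfold dv; positivity
    positivity
  have hle := h θ hθ hθ1
  have hfin : ∑' n : ℕ, ENNReal.ofReal (Aw n ^ 2 * dv n ^ K * (n : ℝ) ^ (-1 - θ)) ≠ ⊤ :=
    ne_top_of_le_ne_top ENNReal.ofReal_ne_top hle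
  have hnn : ∀ n : ℕ, 0 ≤ Aw n ^ 2 * dv n ^ K * (n : ℝ) ^ (-1 - θ) := fun n => by
    have := hdv n
    positivity
  have hs : Summable fun n : ℕ => Aw n ^ 2 * dv n ^ K * (n : ℝ) ^ (-1 - θ) := by
    have := ENNReal.summable_toReal hfin
    refine this.congr fun n => ?_
    rw [ENNReal.toReal_ofReal (hnn n)]
  have hts : ∑' n : ℕ, Aw n ^ 2 * dv n ^ K * (n : ℝ) ^ (-1 - θ) ≤ C * (1 / θ) ^ A := by
    rw [← ENNReal.ofReal_tsum_of_nonneg hnn hs] at hle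
    exact (ENNReal.ofReal_le_ofReal_iff (by positivity)).1 hle
  have hpt : ∀ n : ℕ, Aw (n + 1) ^ 2 * dv (n + 1) ^ K *
        Real.exp (-π * ((n + 1 : ℕ) : ℝ) * U) ≤
      2 * U ^ (-1 - θ) * (Aw (n + 1) ^ 2 * dv (n + 1) ^ K * ((n + 1 : ℕ) : ℝ) ^ (-1 - θ)) := by
    intro n
    have hn : (0 : ℝ) < ((n + 1 : ℕ) : ℝ) := by positivity
    have h1 : Real.exp (-π * ((n + 1 : ℕ) : ℝ) * U) ≤ 2 * (((n + 1 : ℕ) : ℝ) * U) ^ (-1 - θ) := by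
      refine le_trans ?_ (P004.H3.exp_neg_le_rpow (y := ((n + 1 : ℕ) : ℝ) * U) (by positivity)
        hθ.le hθ1)
      rw [Real.exp_le_exp]
      have := Real.pi_gt_three
      have h2 : 0 < ((n + 1 : ℕ) : ℝ) * U := by positivity
      nlinarith
    rw [Real.mul_rpow hn.le hU.le] at h1
    have h3 : 0 ≤ Aw (n + 1) ^ 2 * dv (n + 1) ^ K := hdv (n + 1)
    calc Aw (n + 1) ^ 2 * dv (n + 1) ^ K * Real.exp (-π * ((n + 1 : ℕ) : ℝ) * U)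
        ≤ Aw (n + 1) ^ 2 * dv (n + 1) ^ K *
          (2 * (((n + 1 : ℕ) : ℝ) ^ (-1 - θ) * U ^ (-1 - θ))) := by gcongr
      _ = _ := by ring
  have hs1 : Summable fun n : ℕ => Aw (n + 1) ^ 2 * dv (n + 1) ^ K *
      ((n + 1 : ℕ) : ℝ) ^ (-1 - θ) :=
    (summable_nat_add_iff 1).2 hs
  have hs2 : Summable fun n : ℕ => Aw (n + 1) ^ 2 * dv (n + 1) ^ K *
      Real.exp (-π * ((n + 1 : ℕ) : ℝ) * U) := by
    refine Summable.of_nonneg_of_le (fun n => ?_) hpt (hs1.mul_left _)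
    have := hdv (n + 1)
    positivity
  refine ⟨(summable_nat_add_iff 1).1 hs2, ?_⟩
  calc ∑' n : ℕ, Aw (n + 1) ^ 2 * dv (n + 1) ^ K * Real.exp (-π * ((n + 1 : ℕ) : ℝ) * U)
      ≤ ∑' n : ℕ, 2 * U ^ (-1 - θ) * (Aw (n + 1) ^ 2 * dv (n + 1) ^ K *
          ((n + 1 : ℕ) : ℝ) ^ (-1 - θ)) :=
        Summable.tsum_le_tsum hpt hs2 (hs1.mul_left _)
    _ = 2 * U ^ (-1 - θ) * ∑' n : ℕ, Aw (n + 1) ^ 2 * dv (n + 1) ^ K *
          ((n + 1 : ℕ) : ℝ) ^ (-1 - θ) := by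
        rw [tsum_mul_left]
    _ ≤ 2 * U ^ (-1 - θ) * ∑' n : ℕ, Aw n ^ 2 * dv n ^ K * (n : ℝ) ^ (-1 - θ) := by
        refine mul_le_mul_of_nonneg_left ?_ (by positivity)
        rw [hs.tsum_eq_zero_add]
        have := hnn 0
        linarith
    _ ≤ 2 * U ^ (-1 - θ) * (C * (1 / θ) ^ A) := by gcongr
    _ = _ := by ring

theorem summable_exp (K : ℕ) {U : ℝ} (hU : 0 < U) :
    Summable fun n : ℕ => Aw n ^ 2 * dv n ^ K * Real.exp (-π * n * U) := by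
  obtain ⟨C, -, A, h⟩ := sum_exp K
  exact (h 1 U one_pos le_rfl hU).1

theorem Aw_le_sq (n : ℕ) : Aw n ≤ Aw n ^ 2 := by
  have := one_le_Aw n
  nlinarith

end AW

end P004G
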