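import Vale.Agent.P004X.P004G.Defs
import Vale.Agent.P004.B
import Vale.Agent.P004X.PSW

/-!
# P004X: the majorant `Aw` of the coefficients, and its mean values (Rankin-Selberg)
-/

open Real Set
open scoped ENNReal

namespace P004G

variable [Crv]

namespace AW

theorem one_le_aw (p : ℕ) : 1 ≤ aw p := by
  unfold aw
  split_ifs
  · exact le_rfl
  · linarith [abs_nonneg (lam p)]

theorem aw_nonneg (p : ℕ) : 0 ≤ aw p := zero_le_one.trans (one_le_aw p)

theorem Aw_one : Aw 1 = 1 := by simp [Aw]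

theorem Aw_zero : Aw 0 = 1 := by simp [Aw]

theorem Aw_mul {m n : ℕ} (hm : m ≠ 0) (hn : n ≠ 0) : Aw (m * n) = Aw m * Aw n := by
  unfold Aw
  rw [Nat.factorization_mul hm hn, Finsupp.prod_add_index']
  · intro p; simp
  · intro p i j; rw [pow_add]

theorem Aw_prime {p : ℕ} (hp : p.Prime) : Aw p = aw p := by
  unfold Aw
  rw [hp.factorization, Finsupp.prod_single_index (by simp), pow_one]

theorem Aw_prime_pow {p : ℕ} (hp : p.Prime) (k : ℕ) : Aw (p ^ k) = aw p ^ k := by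
  unfold Aw
  rw [hp.factorization_pow, Finsupp.prod_single_index (by simp)]

theorem Aw_pow {n : ℕ} (hn : n ≠ 0) (k : ℕ) : Aw (n ^ k) = Aw n ^ k := by
  induction k with
  | zero => simp [Aw_one]
  | succ k ih => rw [pow_succ, pow_succ, Aw_mul (pow_ne_zero k hn) hn, ih]

theorem one_le_Aw (n : ℕ) : 1 ≤ Aw n := by
  unfold Aw Finsupp.prod
  refine Finset.prod_induction _ (fun x : ℝ => 1 ≤ x) (fun a b ha hb => ?_) le_rfl
    (fun p _ => one_le_pow₀ (one_le_aw p))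
  nlinarith

theorem Aw_pos (n : ℕ) : 0 < Aw n := zero_lt_one.trans_le (one_le_Aw n)

theorem Aw_nonneg (n : ℕ) : 0 ≤ Aw n := (Aw_pos n).le

theorem abs_ca (p : ℕ) (hp : p.Prime) : |(ca p : ℝ)| = |lam p| * √(p : ℝ) := by
  have hs : 0 < √(p : ℝ) := Real.sqrt_pos.2 (by exact_mod_cast hp.pos)
  unfold lam
  rw [abs_div, abs_of_pos hs, div_mul_cancel₀ _ hs.ne']

/-- the saving -/
theorem pow_le {p : ℕ} (hp : p.Prime) (hb : ¬ p ∣ bd) : |(ca p : ℝ)| ≤ p / 100 := by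
  obtain ⟨δ, h0, h⟩ := Crv.c_pow
  have h1 : (1 : ℝ) ≤ p := by exact_mod_cast hp.one_le
  refine (h p hp hb).trans ?_
  have : (p : ℝ) ^ (1 - δ) ≤ (p : ℝ) ^ (1 : ℝ) :=
    Real.rpow_le_rpow_of_exponent_le h1 (by linarith)
  rw [Real.rpow_one] at this
  linarith

theorem sqrt_big {p : ℕ} (hp : p.Prime) (hb : ¬ p ∣ bd) : 100 ≤ √(p : ℝ) := by
  apply Real.le_sqrt_of_sq_le
  have := Crv.c_big p hp hb
  have : (10000 : ℝ) ≤ p := by exact_mod_cast this
  linarith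

theorem abs_lam_le {p : ℕ} (hp : p.Prime) (hb : ¬ p ∣ bd) : |lam p| ≤ √(p : ℝ) / 100 := by
  have hs : 0 < √(p : ℝ) := Real.sqrt_pos.2 (by exact_mod_cast hp.pos)
  have h1 := pow_le hp hb
  rw [abs_ca p hp] at h1
  have h2 : √(p : ℝ) * √(p : ℝ) = p := Real.mul_self_sqrt (by positivity)
  nlinarith

theorem aw_le {p : ℕ} (hp : p.Prime) (hb : ¬ p ∣ bd) : aw p ≤ √(p : ℝ) / 50 := by
  have h1 := abs_lam_le hp hb
  have h2 := sqrt_big hp hb
  unfold aw
  rw [if_neg hb]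
  linarith

theorem aw_le_sqrt {p : ℕ} (hp : p.Prime) : aw p ≤ √(p : ℝ) := by
  by_cases hb : p ∣ bd
  · unfold aw
    rw [if_pos hb]
    apply Real.le_sqrt_of_sq_le
    have : (1 : ℝ) ≤ p := by exact_mod_cast hp.one_le
    linarith
  · have h1 := aw_le hp hb
    have h2 := sqrt_big hp hb
    linarith

omit [Crv] in
theorem sqrt_factorization (n : ℕ) (hn : n ≠ 0) :
    √(n : ℝ) = n.factorization.prod (fun p j => (√(p : ℝ)) ^ j) := by
  have h1 : ((n.factorization.prod (fun p j => (√(p : ℝ)) ^ j)) : ℝ) ^ 2 = n := by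
    rw [Finsupp.prod, ← Finset.prod_pow]
    have : (n : ℝ) = ((n.factorization.prod (fun p j => p ^ j) : ℕ) : ℝ) := by
      rw [Nat.prod_factorization_pow_eq_self hn]
    rw [this, Finsupp.prod]
    push_cast
    apply Finset.prod_congr rfl
    intro p _
    rw [← pow_mul, mul_comm, pow_mul, Real.sq_sqrt (by positivity)]
  rw [← h1, Real.sqrt_sq]
  exact Finset.prod_nonneg fun p _ => by positivity

theorem Aw_le_sqrt {n : ℕ} (hn : n ≠ 0) : Aw n ≤ √(n : ℝ) := by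
  rw [sqrt_factorization n hn]
  unfold Aw Finsupp.prod
  apply Finset.prod_le_prod
  · intro p _; exact pow_nonneg (aw_nonneg p) _
  · intro p hp
    exact pow_le_pow_left₀ (aw_nonneg p)
      (aw_le_sqrt (Nat.prime_of_mem_primeFactors (by simpa using hp))) _

theorem Aw_sq_le {n : ℕ} (hn : n ≠ 0) : Aw n ^ 2 ≤ n := by
  have h := pow_le_pow_left₀ (Aw_nonneg n) (Aw_le_sqrt hn) 2
  rwa [Real.sq_sqrt (by positivity)] at h

theorem Aw_mul_sqrt_le (n : ℕ) : Aw n * √(n : ℝ) ≤ n := by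
  rcases Nat.eq_zero_or_pos n with rfl | hn
  · simp
  calc Aw n * √(n : ℝ) ≤ √(n : ℝ) * √(n : ℝ) := by gcongr; exact Aw_le_sqrt hn.ne'
    _ = n := Real.mul_self_sqrt (by positivity)

/-- prime powers -/
theorem ca_pow_le {p : ℕ} (hp : p.Prime) (k : ℕ) :
    |(ca (p ^ k) : ℝ)| ≤ (aw p * √(p : ℝ)) ^ k := by
  by_cases hb : p ∣ bd
  · rcases Nat.eq_zero_or_pos k with rfl | hk
    · have : ca 1 = 1 := Crv.c_one
      simp [this]
    · have : ca (p ^ k) = 0 := by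
        refine Crv.c_bad _ fun h => ?_
        have h1 : p ∣ p ^ k := dvd_pow_self p hk.ne'
        exact hp.one_lt.ne' (Nat.eq_one_of_dvd_coprimes h h1 hb)
      rw [this]
      simp only [Int.cast_zero, abs_zero]
      exact pow_nonneg (mul_nonneg (aw_nonneg p) (Real.sqrt_nonneg _)) _
  · set s : ℝ := √(p : ℝ) with hs
    have hs0 : 0 ≤ s := Real.sqrt_nonneg _
    have hs2 : s ^ 2 = p := Real.sq_sqrt (by positivity)
    have ha : aw p = |lam p| + 1 := by unfold aw; rw [if_neg hb]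
    set B : ℝ := aw p * s with hB
    have hB0 : 0 ≤ B := mul_nonneg (aw_nonneg p) hs0
    have hcp : |(ca p : ℝ)| ≤ B := by
      rw [abs_ca p hp, hB, ha]
      nlinarith
    have hBB : |(ca p : ℝ)| * B + p ≤ B ^ 2 := by
      rw [abs_ca p hp, ← hs, hB, ha, ← hs2]
      nlinarith [abs_nonneg (lam p), mul_nonneg (abs_nonneg (lam p)) (sq_nonneg s)]
    have key : ∀ k : ℕ, |(ca (p ^ k) : ℝ)| ≤ B ^ k ∧ |(ca (p ^ (k + 1)) : ℝ)| ≤ B ^ (k + 1) := by
      intro k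
      induction k with
      | zero =>
        have : ca 1 = 1 := Crv.c_one
        refine ⟨by simp [this], by simpa using hcp⟩
      | succ k ih =>
        refine ⟨ih.2, ?_⟩
        have h1 : ca (p ^ (k + 2)) = ca p * ca (p ^ (k + 1)) - p * ca (p ^ k) :=
          Crv.c_hecke p k hp hb
        have h2 : (ca (p ^ (k + 1 + 1)) : ℝ) =
            (ca p : ℝ) * ca (p ^ (k + 1)) - p * ca (p ^ k) := by
          rw [show k + 1 + 1 = k + 2 by ring, h1]
          push_cast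
          ring
        rw [h2]
        calc |(ca p : ℝ) * ca (p ^ (k + 1)) - p * ca (p ^ k)|
            ≤ |(ca p : ℝ) * ca (p ^ (k + 1))| + |(p : ℝ) * ca (p ^ k)| := abs_sub _ _
          _ = |(ca p : ℝ)| * |(ca (p ^ (k + 1)) : ℝ)| + p * |(ca (p ^ k) : ℝ)| := by
              rw [abs_mul, abs_mul, abs_of_nonneg (by positivity : (0 : ℝ) ≤ (p : ℝ))]
          _ ≤ |(ca p : ℝ)| * B ^ (k + 1) + p * B ^ k := by
              gcongr
              · exact ih.2
              · exact ih.1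
          _ = (|(ca p : ℝ)| * B + p) * B ^ k := by ring
          _ ≤ B ^ 2 * B ^ k := by gcongr
          _ = B ^ (k + 1 + 1) := by ring
    exact (key k).1

theorem ca_zero : ca 0 = 0 := Crv.c_bad 0 (by
    rw [Nat.coprime_zero_left]
    intro h
    exact absurd (Nat.le_of_dvd (by omega) (h ▸ Crv.two_dvd)) (by norm_num))

/-- the coefficients on factorizations -/
theorem ca_factorization {n : ℕ} (hn : n ≠ 0) :
    (ca n : ℝ) = n.factorization.prod fun p k => (ca (p ^ k) : ℝ) := by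
  have h1 : ∀ m n : ℕ, m.Coprime n → ((ca (m * n) : ℤ) : ℝ) = (ca m : ℝ) * (ca n : ℝ) := by
    intro m n h
    have : ca (m * n) = ca m * ca n := Crv.c_mul m n h
    rw [this]; push_cast; ring
  exact Nat.multiplicative_factorization (fun n => (ca n : ℝ)) h1
    (by show ((ca 1 : ℤ) : ℝ) = 1; rw [show ca 1 = 1 from Crv.c_one]; simp) hn

/-- **the bound for the coefficients** -/
theorem ca_bound (n : ℕ) : |(ca n : ℝ)| ≤ Aw n * √(n : ℝ) := by
  rcases Nat.eq_zero_or_pos n with rfl | hn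
  · rw [ca_zero]; simp
  rw [ca_factorization hn.ne', sqrt_factorization n hn.ne']
  unfold Aw Finsupp.prod
  rw [Finset.abs_prod, ← Finset.prod_mul_distrib]
  refine Finset.prod_le_prod (fun p _ => abs_nonneg _) fun p hp => ?_
  rw [← mul_pow]
  exact ca_pow_le (Nat.prime_of_mem_primeFactors (by simpa using hp)) _

theorem ca_le (n : ℕ) : |(ca n : ℝ)| ≤ n := (ca_bound n).trans (Aw_mul_sqrt_le n)

theorem ca_le_sq (n : ℕ) : |(ca n : ℝ)| ≤ (n : ℝ) ^ 2 := by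
  rcases Nat.eq_zero_or_pos n with rfl | hn
  · rw [ca_zero]; simp
  have h1 : (1 : ℝ) ≤ n := by exact_mod_cast hn
  have h2 := ca_le n
  nlinarith

theorem lam_le (n : ℕ) : |lam n| ≤ Aw n := by
  unfold lam
  rcases Nat.eq_zero_or_pos n with h | h
  · subst h
    simp [Aw_nonneg]
  · have hs : 0 < √(n : ℝ) := Real.sqrt_pos.mpr (by exact_mod_cast h)
    rw [abs_div, abs_of_pos hs, div_le_iff₀ hs]
    exact ca_bound n

theorem lam_le_self (n : ℕ) : |lam n| ≤ n := by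
  rcases Nat.eq_zero_or_pos n with h | h
  · subst h; simp [lam]
  · refine (lam_le n).trans ((Aw_le_sqrt h.ne').trans ?_)
    have h1 : (1 : ℝ) ≤ n := by exact_mod_cast h
    rw [Real.sqrt_le_left (by positivity)]
    nlinarith

theorem ca_sq_le (n : ℕ) : (ca n : ℝ) ^ 2 ≤ Aw n ^ 2 * n := by
  have h2 : |(ca n : ℝ)| ^ 2 ≤ (Aw n * √(n : ℝ)) ^ 2 := by
    apply pow_le_pow_left₀ (abs_nonneg _) (ca_bound n)
  rw [sq_abs, mul_pow, Real.sq_sqrt (Nat.cast_nonneg _)] at h2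
  exact h2

/-! ### Mertens -/

/-- the sum over one dyadic class -/
theorem dyadic : ∃ K : ℝ, 0 < K ∧ ∀ (S : Finset ℕ) (j : ℕ), (∀ p ∈ S, p.Prime) → 1 ≤ j →
    (∀ p ∈ S, Nat.log 2 p = j) → ∑ p ∈ S, aw p ^ 2 / p ≤ K / j := by
  classical
  obtain ⟨C, hC⟩ := Crv.c_mert
  have hC0 : 0 ≤ C := (abs_nonneg _).trans (hC 1 le_rfl)
  have hl2 : 0 < Real.log 2 := Real.log_pos (by norm_num)
  refine ⟨2 * (4 + (2 * C + 8) / Real.log 2) , by positivity, fun S j hS hj hSj => ?_⟩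
  have hj' : (1 : ℝ) ≤ j := by exact_mod_cast hj
  have hj0 : (0 : ℝ) < j := by linarith
  have hrange : ∀ p ∈ S, 2 ^ j ≤ p ∧ p < 2 ^ (j + 1) := by
    intro p hp
    have h1 := Nat.pow_log_le_self 2 (hS p hp).ne_zero
    have h2 := Nat.lt_pow_succ_log_self (b := 2) (by norm_num) p
    rw [hSj p hp] at h1 h2
    exact ⟨h1, h2⟩
  have hlog : ∀ p : ℕ, 2 ^ j ≤ p → (j : ℝ) * Real.log 2 ≤ Real.log p := by
    intro p hp
    rw [← Real.log_pow]
    exact Real.log_le_log (by positivity) (by exact_mod_cast hp)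
  -- the whole dyadic class
  set D : Finset ℕ := (Finset.range (2 ^ (j + 1))).filter
    (fun p => (p.Prime ∧ ¬ p ∣ bd) ∧ 2 ^ j ≤ p) with hD
  have hDp : ∀ p ∈ D, p.Prime := fun p hp => (Finset.mem_filter.1 hp).2.1.1
  have hDj : ∀ p ∈ D, Nat.log 2 p = j := by
    intro p hp
    have h1 := Finset.mem_filter.1 hp
    have h2 := Finset.mem_range.1 h1.1
    exact Nat.log_eq_of_pow_le_of_lt_pow h1.2.2 h2
  have hD1 := P004.H293.sum_dyadic hDp hj hDj
  have hmert : ∑ p ∈ D, (lam p ^ 2 - 1) * Real.log p / p ≤ 2 * C := by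
    have e : ∀ p ∈ D, (lam p ^ 2 - 1) * Real.log p / p =
        ((ca p : ℝ) ^ 2 / p - 1) * Real.log p / p := by
      intro p hp
      unfold lam
      rw [div_pow, Real.sq_sqrt (by positivity)]
    rw [Finset.sum_congr rfl e]
    have a1 := hC ((2 ^ (j + 1) - 1 : ℕ) : ℝ) (by
      have : 2 ^ 1 ≤ 2 ^ (j + 1) := Nat.pow_le_pow_right (by norm_num) (by omega)
      have : 1 ≤ 2 ^ (j + 1) - 1 := by omega
      exact_mod_cast this)
    have a2 := hC ((2 ^ j - 1 : ℕ) : ℝ) (by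
      have : 2 ^ 1 ≤ 2 ^ j := Nat.pow_le_pow_right (by norm_num) hj
      have : 1 ≤ 2 ^ j - 1 := by omega
      exact_mod_cast this)
    rw [Nat.floor_natCast] at a1 a2
    have p1 : 2 ^ (j + 1) - 1 + 1 = 2 ^ (j + 1) := Nat.sub_add_cancel (Nat.one_le_two_pow)
    have p2 : 2 ^ j - 1 + 1 = 2 ^ j := Nat.sub_add_cancel (Nat.one_le_two_pow)
    rw [p1] at a1
    rw [p2] at a2
    set f : ℕ → ℝ := fun p => if p.Prime ∧ ¬ p ∣ Crv.bd then
      ((Crv.c p : ℝ) ^ 2 / p - 1) * Real.log p / p else 0 with hf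
    have hsplit : ∑ p ∈ Finset.range (2 ^ (j + 1)), f p =
        ∑ p ∈ Finset.range (2 ^ j), f p +
          ∑ p ∈ D, ((ca p : ℝ) ^ 2 / p - 1) * Real.log p / p := by
      have hle : 2 ^ j ≤ 2 ^ (j + 1) := Nat.pow_le_pow_right (by norm_num) (by omega)
      rw [← Finset.sum_filter_add_sum_filter_not (Finset.range (2 ^ (j + 1))) (fun p => p < 2 ^ j)]
      congr 1
      · refine Finset.sum_congr ?_ fun _ _ => rfl
        ext p
        simp only [Finset.mem_filter, Finset.mem_range]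
        omega
      · rw [hD, ← Finset.filter_filter, Finset.sum_filter (fun p => 2 ^ j ≤ p),
          Finset.sum_filter, Finset.sum_filter]
        refine Finset.sum_congr rfl fun p _ => ?_
        simp only [hf, not_lt]
        by_cases h1 : p.Prime ∧ ¬ p ∣ Crv.bd
        · have h1' : p.Prime ∧ ¬ p ∣ bd := h1
          rw [if_pos h1, if_pos h1']
          rfl
        · have h1' : ¬ (p.Prime ∧ ¬ p ∣ bd) := h1
          rw [if_neg h1, if_neg h1']
          simp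
    have b1 := (abs_le.1 a1).2
    have b2 := (abs_le.1 a2).1
    linarith
  have hlamD : ∑ p ∈ D, lam p ^ 2 / p ≤ ((2 * C + 8) / Real.log 2) / j := by
    have h1 : ∑ p ∈ D, lam p ^ 2 * Real.log p / p ≤ 2 * C + 8 := by
      have h2 : ∑ p ∈ D, Real.log p / p ≤ 8 := by
        calc ∑ p ∈ D, Real.log p / p ≤ ∑ p ∈ D, ((j + 1 : ℕ) : ℝ) * Real.log 2 * (1 / p) := by
              refine Finset.sum_le_sum fun p hp => ?_
              have h3 := Finset.mem_range.1 (Finset.mem_filter.1 hp).1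
              have h4 : (0 : ℝ) < p := by exact_mod_cast (hDp p hp).pos
              rw [mul_one_div]
              gcongr
              rw [← Real.log_pow]
              exact Real.log_le_log h4 (by exact_mod_cast h3.le)
          _ = ((j + 1 : ℕ) : ℝ) * Real.log 2 * ∑ p ∈ D, (1 : ℝ) / p := by rw [Finset.mul_sum]
          _ ≤ ((j + 1 : ℕ) : ℝ) * Real.log 2 * (4 / j) := by gcongr
          _ ≤ (2 * j) * 1 * (4 / j) := by
              gcongr
              · push_cast; linarith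
              · linarith [Real.log_two_lt_d9]
          _ = 8 := by field_simp; norm_num
      have h5 : ∑ p ∈ D, lam p ^ 2 * Real.log p / p =
          ∑ p ∈ D, (lam p ^ 2 - 1) * Real.log p / p + ∑ p ∈ D, Real.log p / p := by
        rw [← Finset.sum_add_distrib]
        refine Finset.sum_congr rfl fun p _ => ?_
        ring
      linarith
    have h6 : ∑ p ∈ D, lam p ^ 2 / p * (j * Real.log 2) ≤ 2 * C + 8 := by
      refine le_trans (Finset.sum_le_sum fun p hp => ?_) h1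
      have h7 := hlog p (Finset.mem_filter.1 hp).2.2
      have h8 : 0 ≤ lam p ^ 2 / p := by positivity
      calc lam p ^ 2 / p * (j * Real.log 2) ≤ lam p ^ 2 / p * Real.log p := by gcongr
        _ = lam p ^ 2 * Real.log p / p := by ring
    rw [← Finset.sum_mul] at h6
    rw [div_div, le_div_iff₀ (by positivity)]
    linarith [mul_comm (j : ℝ) (Real.log 2)]
  have hS1 := P004.H293.sum_dyadic hS hj hSj
  calc ∑ p ∈ S, aw p ^ 2 / p
      ≤ ∑ p ∈ S, (2 * (1 / (p : ℝ)) + (if p ∣ bd then 0 else 2 * (lam p ^ 2 / p))) := by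
        refine Finset.sum_le_sum fun p hp => ?_
        have hp0 : (0 : ℝ) < p := by exact_mod_cast (hS p hp).pos
        unfold aw
        split_ifs with hb
        · rw [one_pow, add_zero]
          have : 0 < 1 / (p : ℝ) := by positivity
          linarith
        · have h1 : (|lam p| + 1) ^ 2 ≤ 2 + 2 * lam p ^ 2 := by
            have := sq_abs (lam p)
            nlinarith [sq_nonneg (|lam p| - 1)]
          calc (|lam p| + 1) ^ 2 / (p : ℝ) ≤ (2 + 2 * lam p ^ 2) / p := by gcongr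
            _ = _ := by ring
    _ = 2 * ∑ p ∈ S, 1 / (p : ℝ) + 2 * ∑ p ∈ S with ¬ p ∣ bd, lam p ^ 2 / p := by
        rw [Finset.sum_add_distrib, Finset.mul_sum, Finset.mul_sum, Finset.sum_filter]
        congr 1
        refine Finset.sum_congr rfl fun p _ => ?_
        split_ifs <;> simp_all
    _ ≤ 2 * (4 / j) + 2 * (((2 * C + 8) / Real.log 2) / j) := by
        gcongr
        refine le_trans ?_ hlamD
        refine Finset.sum_le_sum_of_subset_of_nonneg ?_ fun p _ _ => by positivity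
        intro p hp
        rw [Finset.mem_filter] at hp
        have := hrange p hp.1
        rw [hD, Finset.mem_filter, Finset.mem_range]
        exact ⟨this.2, ⟨hS p hp.1, hp.2⟩, this.1⟩
    _ = _ := by ring

/-- the weight `aw p ^ 2 / p` -/
noncomputable def wq (p : ℕ) : ℝ := aw p ^ 2 / p

theorem wq_nonneg (p : ℕ) : 0 ≤ wq p := by unfold wq; positivity

theorem dw_exists : ∃ kk : ℝ, P004X.DW wq kk := by
  obtain ⟨K, hK, h⟩ := dyadic
  refine ⟨max 1 K, le_max_left _ _, wq_nonneg, fun S j hS hj hSj => ?_⟩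
  have h1 := h S j hS hj hSj
  have hj' : (0 : ℝ) < j := by exact_mod_cast hj
  unfold wq
  refine h1.trans ?_
  calc K / j ≤ max 1 K / j := by gcongr; exact le_max_right _ _
    _ ≤ max 1 K * (4 / j) := by
        rw [← mul_div_assoc]
        gcongr
        have : (0 : ℝ) ≤ max 1 K := zero_le_one.trans (le_max_left _ _)
        linarith

/-- the constant in Mertens' theorem for `aw` -/
noncomputable def kk : ℝ := Classical.choose dw_exists

theorem dw : P004X.DW wq kk := Classical.choose_spec dw_exists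

theorem one_le_kk : 1 ≤ kk := dw.one_le

theorem kk_pos : 0 < kk := zero_lt_one.trans_le one_le_kk

theorem inv_le_wq {p : ℕ} (hp : p.Prime) : 1 / (p : ℝ) ≤ wq p := by
  have hp0 : (0 : ℝ) < p := by exact_mod_cast hp.pos
  unfold wq
  gcongr
  exact one_le_pow₀ (one_le_aw p)

theorem wq_le {p : ℕ} (hp : p.Prime) (hb : ¬ p ∣ bd) : wq p ≤ 1 / 2500 := by
  have hp0 : (0 : ℝ) < p := by exact_mod_cast hp.pos
  have h1 := aw_le hp hb
  have h2 : aw p ^ 2 ≤ (√(p : ℝ) / 50) ^ 2 := pow_le_pow_left₀ (aw_nonneg p) h1 2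
  rw [div_pow, Real.sq_sqrt hp0.le] at h2
  unfold wq
  rw [div_le_iff₀ hp0]
  linarith

theorem wq_le_half {p : ℕ} (hp : p.Prime) : wq p ≤ 1 / 2 := by
  by_cases hb : p ∣ bd
  · unfold wq aw
    rw [if_pos hb, one_pow]
    apply one_div_le_one_div_of_le (by norm_num)
    exact_mod_cast hp.two_le
  · exact (wq_le hp hb).trans (by norm_num)

/-! ### mean values of `Aw ^ 2` -/

/-- `Aw n ^ 2 n ^ (-1 - θ)` -/
noncomputable def fw (θ : ℝ) (hθ : 0 < θ) : ℕ →*₀ ℝ where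
  toFun n := Aw n ^ 2 * (n : ℝ) ^ (-1 - θ)
  map_zero' := by
    rw [Nat.cast_zero, Real.zero_rpow (by linarith), mul_zero]
  map_one' := by simp [Aw_one]
  map_mul' m n := by
    rcases Nat.eq_zero_or_pos m with rfl | hm
    · rw [zero_mul, Nat.cast_zero, Real.zero_rpow (by linarith)]; ring
    rcases Nat.eq_zero_or_pos n with rfl | hn
    · rw [mul_zero, Nat.cast_zero, Real.zero_rpow (by linarith)]; ring
    rw [Aw_mul hm.ne' hn.ne', Nat.cast_mul, Real.mul_rpow (by positivity) (by positivity)]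
    ring

theorem fw_apply (θ : ℝ) (hθ : 0 < θ) (n : ℕ) : fw θ hθ n = Aw n ^ 2 * (n : ℝ) ^ (-1 - θ) := rfl

theorem fw_nonneg (θ : ℝ) (hθ : 0 < θ) (n : ℕ) : 0 ≤ fw θ hθ n := by
  rw [fw_apply]; positivity

theorem fw_prime (θ : ℝ) (hθ : 0 < θ) {p : ℕ} (hp : p.Prime) :
    fw θ hθ p = (p : ℝ) ^ (-θ) * wq p := by
  have hp0 : (0 : ℝ) < p := by exact_mod_cast hp.pos
  rw [fw_apply, Aw_prime hp, show (-1 - θ) = -θ - 1 by ring, Real.rpow_sub_one hp0.ne']
  unfold wq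
  ring

theorem fw_prime_le (θ : ℝ) (hθ : 0 < θ) {p : ℕ} (hp : p.Prime) : fw θ hθ p ≤ 1 / 2 := by
  rw [fw_prime θ hθ hp]
  have h1 : (p : ℝ) ^ (-θ) ≤ 1 :=
    Real.rpow_le_one_of_one_le_of_nonpos (by exact_mod_cast hp.one_le) (by linarith)
  have h2 := wq_nonneg p
  calc (p : ℝ) ^ (-θ) * wq p ≤ 1 * wq p := by gcongr
    _ ≤ 1 / 2 := by rw [one_mul]; exact wq_le_half hp

omit [Crv] in
theorem inv_le_exp {x : ℝ} (h0 : 0 ≤ x) (h1 : x ≤ 1 / 2) : (1 - x)⁻¹ ≤ Real.exp (2 * x) := by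
  rw [inv_le_comm₀ (by linarith) (Real.exp_pos _), ← Real.exp_neg]
  have h2 : Real.exp (-(2 * x)) ≤ 1 / (1 + 2 * x) := by
    rw [Real.exp_neg, one_div]
    apply inv_anti₀ (by linarith)
    linarith [Real.add_one_le_exp (2 * x)]
  refine h2.trans ?_
  rw [div_le_iff₀ (by linarith)]
  nlinarith

theorem primes_sum {θ : ℝ} (h0 : 0 < θ) (h1 : θ ≤ 1) (N : ℕ) :
    ∑ p ∈ N.primesBelow, fw θ h0 p ≤ kk * (264 * (1 + Real.log (3 / θ))) := by
  have h2 : ∀ p ∈ N.primesBelow, p.Prime := fun p hp => Nat.prime_of_mem_primesBelow hp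
  have h3 := P004X.sum_rpow_tail' dw h2 (le_refl (2 : ℝ)) h0 h1
    (fun p hp => by exact_mod_cast (h2 p hp).two_le)
  rw [Finset.sum_congr rfl fun p hp => fw_prime θ h0 (h2 p hp)]
  refine h3.trans (mul_le_mul_of_nonneg_left ?_ kk_pos.le)
  have hl2 : 0.69 < Real.log 2 := by linarith [Real.log_two_gt_d9]
  have e1 : Real.exp (-θ * Real.log 2) ≤ 1 := by
    rw [Real.exp_le_one_iff]
    nlinarith
  have e2 : 1 + 1 / (θ * Real.log 2) ≤ 3 / θ := by
    have : 1 / (θ * Real.log 2) ≤ 2 / θ := by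
      rw [div_le_div_iff₀ (by positivity) h0]
      nlinarith
    have h5 : 1 ≤ 1 / θ := by rw [le_div_iff₀ h0]; linarith
    calc 1 + 1 / (θ * Real.log 2) ≤ 1 / θ + 2 / θ := add_le_add h5 this
      _ = 3 / θ := by ring
  have e3 : Real.log (1 + 1 / (θ * Real.log 2)) ≤ Real.log (3 / θ) :=
    Real.log_le_log (by positivity) e2
  have e4 : 0 ≤ Real.log (1 + 1 / (θ * Real.log 2)) := by
    apply Real.log_nonneg
    have : 0 ≤ 1 / (θ * Real.log 2) := by positivity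
    linarith
  calc 264 * Real.exp (-θ * Real.log 2) * (1 + Real.log (1 + 1 / (θ * Real.log 2)))
      ≤ 264 * 1 * (1 + Real.log (3 / θ)) := by gcongr
    _ = _ := by ring

theorem tsum_fw_le {θ : ℝ} (h0 : 0 < θ) (h1 : θ ≤ 1) :
    ∑' n : ℕ, ENNReal.ofReal (fw θ h0 n) ≤
      ENNReal.ofReal (Real.exp (2 * (kk * (264 * (1 + Real.log (3 / θ)))))) := by
  apply ENNReal.tsum_le_of_sum_range_le
  intro N
  rw [← ENNReal.ofReal_sum_of_nonneg (fun i _ => fw_nonneg θ h0 i)]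
  apply ENNReal.ofReal_le_ofReal
  have hlt : ∀ {p : ℕ}, p.Prime → ‖fw θ h0 p‖ < 1 := by
    intro p hp
    rw [Real.norm_of_nonneg (fw_nonneg θ h0 p)]
    linarith [fw_prime_le θ h0 hp]
  have hsum : HasSum (fun m : N.smoothNumbers => fw θ h0 m)
      (∏ p ∈ N.primesBelow, (1 - fw θ h0 p)⁻¹) :=
    (EulerProduct.summable_and_hasSum_smoothNumbers_prod_primesBelow_geometric
      (f := (fw θ h0 : ℕ →* ℝ)) hlt N).2
  have h2 : ∑ i ∈ Finset.range N, fw θ h0 i ≤ ∏ p ∈ N.primesBelow, (1 - fw θ h0 p)⁻¹ := by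
    rw [← hsum.tsum_eq]
    have hs' : Summable fun m : N.smoothNumbers => fw θ h0 m := hsum.summable
    classical
    -- the positive integers below `N` are `N`-smooth
    have h3 : ∑ i ∈ Finset.range N, fw θ h0 i = ∑ i ∈ (Finset.range N).filter (· ≠ 0), fw θ h0 i := by
      rw [Finset.sum_filter]
      refine Finset.sum_congr rfl fun i _ => ?_
      split_ifs with h
      · rfl
      · rw [not_ne_iff.1 h, map_zero]
    rw [h3]
    have h4 : ∀ i ∈ (Finset.range N).filter (· ≠ 0), i ∈ N.smoothNumbers := by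
      intro i hi
      rw [Finset.mem_filter, Finset.mem_range] at hi
      rw [Nat.mem_smoothNumbers']
      intro p hp hpi
      exact (Nat.le_of_dvd (Nat.pos_of_ne_zero hi.2) hpi).trans_lt hi.1
    have h5 : ∑ i ∈ (Finset.range N).filter (· ≠ 0), fw θ h0 i =
        ∑ i ∈ (Finset.range N).filter (· ≠ 0), (N.smoothNumbers).indicator (fun n => fw θ h0 n) i := by
      refine Finset.sum_congr rfl fun i hi => ?_
      rw [Set.indicator_of_mem (h4 i hi)]
    rw [h5, tsum_subtype (N.smoothNumbers) (fun n => fw θ h0 n)]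
    refine Summable.sum_le_tsum _ (fun i _ => Set.indicator_nonneg (fun n _ => fw_nonneg θ h0 n) i) ?_
    exact (summable_subtype_iff_indicator).1 hs'
  refine h2.trans ?_
  calc ∏ p ∈ N.primesBelow, (1 - fw θ h0 p)⁻¹
      ≤ ∏ p ∈ N.primesBelow, Real.exp (2 * fw θ h0 p) := by
        refine Finset.prod_le_prod (fun p hp => ?_) fun p hp => ?_
        · have := fw_prime_le θ h0 (Nat.prime_of_mem_primesBelow hp)
          exact inv_nonneg.2 (by linarith)
        · exact inv_le_exp (fw_nonneg θ h0 p) (fw_prime_le θ h0 (Nat.prime_of_mem_primesBelow hp))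
    _ = Real.exp (2 * ∑ p ∈ N.primesBelow, fw θ h0 p) := by
        rw [← Real.exp_sum, Finset.mul_sum]
    _ ≤ _ := by
        apply Real.exp_le_exp.2
        have := primes_sum h0 h1 N
        linarith

/-- the case `K = 0` -/
theorem div0 : ∃ C : ℝ, 0 < C ∧ ∃ A : ℕ, ∀ θ : ℝ, 0 < θ → θ ≤ 1 →
    ∑' n : ℕ, ENNReal.ofReal (Aw n ^ 2 * (n : ℝ) ^ (-1 - θ)) ≤
      ENNReal.ofReal (C * (1 / θ) ^ A) := by
  have hk := kk_pos
  refine ⟨Real.exp (528 * kk * (1 + Real.log 3)), Real.exp_pos _, ⌈528 * kk⌉₊,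
    fun θ h0 h1 => ?_⟩
  refine (tsum_fw_le h0 h1).trans (ENNReal.ofReal_le_ofReal ?_)
  have hθ : 1 ≤ 1 / θ := by rw [le_div_iff₀ h0]; linarith
  have e1 : Real.log (3 / θ) = Real.log 3 + Real.log (1 / θ) := by
    rw [← Real.log_mul (by norm_num) (by positivity)]
    congr 1; ring
  have e2 : Real.exp (2 * (kk * (264 * (1 + Real.log (3 / θ))))) =
      Real.exp (528 * kk * (1 + Real.log 3)) * (1 / θ) ^ (528 * kk) := by
    rw [Real.rpow_def_of_pos (by positivity), ← Real.exp_add, e1]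
    congr 1; ring
  rw [e2]
  refine mul_le_mul_of_nonneg_left ?_ (Real.exp_pos _).le
  rw [← Real.rpow_natCast]
  exact Real.rpow_le_rpow_of_exponent_le hθ (Nat.le_ceil _)

theorem dv_step (K : ℕ) (θ : ℝ) :
    ∑' n : ℕ, ENNReal.ofReal (Aw n ^ 2 * dv n ^ (K + 1) * (n : ℝ) ^ (-1 - θ)) ≤
      (∑' n : ℕ, ENNReal.ofReal (Aw n ^ 2 * dv n ^ K * (n : ℝ) ^ (-1 - θ))) *
        ∑' n : ℕ, ENNReal.ofReal (Aw n ^ 2 * dv n ^ K * (n : ℝ) ^ (-1 - θ)) := by
  refine le_trans ?_ (P004.B.tsum_divisors_mul _ _)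
  apply ENNReal.tsum_le_tsum
  intro n
  have hcard : (n.divisorsAntidiagonal.card : ℝ) = dv n := by
    unfold P004.dv
    rw [← Nat.map_div_right_divisors, Finset.card_map]
  have hle : ∀ p ∈ n.divisorsAntidiagonal,
      ENNReal.ofReal (Aw n ^ 2 * dv n ^ K * (n : ℝ) ^ (-1 - θ)) ≤
      ENNReal.ofReal (Aw p.1 ^ 2 * dv p.1 ^ K * (p.1 : ℝ) ^ (-1 - θ)) *
        ENNReal.ofReal (Aw p.2 ^ 2 * dv p.2 ^ K * (p.2 : ℝ) ^ (-1 - θ)) := by
    intro p hp
    have hpn := Nat.mem_divisorsAntidiagonal.1 hp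
    have hn0 : p.1 * p.2 ≠ 0 := by rw [hpn.1]; exact hpn.2
    have h10 : p.1 ≠ 0 := left_ne_zero_of_mul hn0
    have h20 : p.2 ≠ 0 := right_ne_zero_of_mul hn0
    have hd1 := P004.B.dv_nonneg p.1
    have hd2 := P004.B.dv_nonneg p.2
    rw [← ENNReal.ofReal_mul (by positivity)]
    apply ENNReal.ofReal_le_ofReal
    have h1 : (n : ℝ) ^ (-1 - θ) = (p.1 : ℝ) ^ (-1 - θ) * (p.2 : ℝ) ^ (-1 - θ) := by
      rw [← hpn.1]; push_cast
      rw [Real.mul_rpow (by positivity) (by positivity)]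
    have h2 : dv n ^ K ≤ dv p.1 ^ K * dv p.2 ^ K := by
      rw [← mul_pow, ← hpn.1]
      exact pow_le_pow_left₀ (P004.B.dv_nonneg _) (P004.B.dv_mul_le _ _) _
    have h3 : Aw n = Aw p.1 * Aw p.2 := by rw [← hpn.1, Aw_mul h10 h20]
    rw [h1, h3]
    calc (Aw p.1 * Aw p.2) ^ 2 * dv n ^ K * ((p.1 : ℝ) ^ (-1 - θ) * (p.2 : ℝ) ^ (-1 - θ))
        ≤ (Aw p.1 * Aw p.2) ^ 2 * (dv p.1 ^ K * dv p.2 ^ K) *
          ((p.1 : ℝ) ^ (-1 - θ) * (p.2 : ℝ) ^ (-1 - θ)) := by gcongr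
      _ = _ := by ring
  calc ENNReal.ofReal (Aw n ^ 2 * dv n ^ (K + 1) * (n : ℝ) ^ (-1 - θ))
      = ∑ p ∈ n.divisorsAntidiagonal, ENNReal.ofReal (Aw n ^ 2 * dv n ^ K * (n : ℝ) ^ (-1 - θ)) := by
        rw [Finset.sum_const, nsmul_eq_mul, ← ENNReal.ofReal_natCast,
          ← ENNReal.ofReal_mul (by positivity), hcard]
        congr 1
        ring
    _ ≤ _ := Finset.sum_le_sum hle

theorem div1 (K : ℕ) : ∃ C : ℝ, 0 < C ∧ ∃ A : ℕ, ∀ θ : ℝ, 0 < θ → θ ≤ 1 →
    ∑' n : ℕ, ENNReal.ofReal (Aw n ^ 2 * dv n ^ K * (n : ℝ) ^ (-1 - θ)) ≤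
      ENNReal.ofReal (C * (1 / θ) ^ A) := by
  induction K with
  | zero =>
    obtain ⟨C, hC, A, h⟩ := div0
    refine ⟨C, hC, A, fun θ h0 h1 => ?_⟩
    simpa using h θ h0 h1
  | succ K ih =>
    obtain ⟨C, hC, A, h⟩ := ih
    refine ⟨C * C, by positivity, A + A, fun θ h0 h1 => ?_⟩
    refine (dv_step K θ).trans ?_
    have hh := h θ h0 h1
    calc _ ≤ ENNReal.ofReal (C * (1 / θ) ^ A) * ENNReal.ofReal (C * (1 / θ) ^ A) :=
          mul_le_mul' hh hh
      _ = ENNReal.ofReal (C * C * (1 / θ) ^ (A + A)) := by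
          rw [← ENNReal.ofReal_mul (by positivity)]
          congr 1
          rw [pow_add]; ring

theorem div2 (K : ℕ) : ∃ C : ℝ, 0 < C ∧ ∃ A : ℕ, ∀ θ : ℝ, 0 < θ → θ ≤ 1 →
    ∑' r : {r : ℕ // Powerful r}, ENNReal.ofReal (Aw r * dv r ^ K * (r : ℝ) ^ (-1 / 2 - θ)) ≤
      ENNReal.ofReal (C * (1 / θ) ^ A) := by
  obtain ⟨C₁, hC₁, A₁, h₁⟩ := div1 (2 * K)
  obtain ⟨C₂, hC₂, A₂, h₂⟩ := div1 (3 * K)
  refine ⟨C₁ * C₂, by positivity, A₁ + A₂, fun θ h0 h1 => ?_⟩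
  choose s t hs ht hst using fun r : {r : ℕ // Powerful r} => P004.B.powerful_eq r.1 r.2
  let φ : {r : ℕ // Powerful r} → ℕ × ℕ := fun r => (s r, t r)
  have hinj : Function.Injective φ := by
    intro r r' h
    have h1 : s r = s r' := congrArg Prod.fst h
    have h2 : t r = t r' := congrArg Prod.snd h
    apply Subtype.ext
    rw [hst r, hst r', h1, h2]
  let G : ℕ × ℕ → ℝ≥0∞ := fun p =>
    ENNReal.ofReal (Aw p.1 ^ 2 * dv p.1 ^ (2 * K) * (p.1 : ℝ) ^ (-1 - θ)) *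
      ENNReal.ofReal (Aw p.2 ^ 2 * dv p.2 ^ (3 * K) * (p.2 : ℝ) ^ (-1 - θ))
  have hle : ∀ r : {r : ℕ // Powerful r},
      ENNReal.ofReal (Aw r * dv r ^ K * (r : ℝ) ^ (-1 / 2 - θ)) ≤ G (φ r) := by
    intro r
    simp only [G, φ]
    have hd1 := P004.B.dv_nonneg (s r)
    have hd2 := P004.B.dv_nonneg (t r)
    rw [← ENNReal.ofReal_mul (by positivity)]
    apply ENNReal.ofReal_le_ofReal
    have hs1 : (1 : ℝ) ≤ s r := by exact_mod_cast Nat.one_le_iff_ne_zero.2 (hs r)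
    have ht1 : (1 : ℝ) ≤ t r := by exact_mod_cast Nat.one_le_iff_ne_zero.2 (ht r)
    have ht0 : (0 : ℝ) < t r := by linarith
    have hs0 : (0 : ℝ) < s r := by linarith
    have hd : dv r ^ K ≤ dv (s r) ^ (2 * K) * dv (t r) ^ (3 * K) := by
      rw [pow_mul, pow_mul, ← mul_pow]
      apply pow_le_pow_left₀ (P004.B.dv_nonneg _)
      conv_lhs => rw [hst r]
      refine (P004.B.dv_mul_le _ _).trans ?_
      exact mul_le_mul (P004.B.dv_pow_le _ _) (P004.B.dv_pow_le _ _) (P004.B.dv_nonneg _)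
        (pow_nonneg (P004.B.dv_nonneg _) _)
    have hA : Aw r = Aw (s r) ^ 2 * Aw (t r) ^ 3 := by
      conv_lhs => rw [hst r]
      rw [Aw_mul (pow_ne_zero _ (hs r)) (pow_ne_zero _ (ht r)), Aw_pow (hs r), Aw_pow (ht r)]
    have hr : ((r : ℕ) : ℝ) ^ (-1 / 2 - θ) ≤
        (s r : ℝ) ^ (-1 - θ) * ((t r : ℝ) ^ (-1 / 2 : ℝ) * (t r : ℝ) ^ (-1 - θ)) := by
      have e : ((r : ℕ) : ℝ) = (s r : ℝ) ^ (2 : ℝ) * (t r : ℝ) ^ (3 : ℝ) := by
        conv_lhs => rw [hst r]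
        push_cast
        rw [show (2 : ℝ) = ((2 : ℕ) : ℝ) by norm_num, show (3 : ℝ) = ((3 : ℕ) : ℝ) by norm_num,
          Real.rpow_natCast, Real.rpow_natCast]
      rw [e, Real.mul_rpow (by positivity) (by positivity), ← Real.rpow_mul (by positivity),
        ← Real.rpow_mul (by positivity), ← Real.rpow_add ht0]
      apply mul_le_mul
      · exact Real.rpow_le_rpow_of_exponent_le hs1 (by linarith)
      · exact Real.rpow_le_rpow_of_exponent_le ht1 (by linarith)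
      · positivity
      · positivity
    have ht2 : Aw (t r) * (t r : ℝ) ^ (-1 / 2 : ℝ) ≤ 1 := by
      have h5 := Aw_le_sqrt (ht r)
      have h6 : (t r : ℝ) ^ (-1 / 2 : ℝ) = (√(t r : ℝ))⁻¹ := by
        rw [show (-1 / 2 : ℝ) = -(1 / 2) by norm_num, Real.rpow_neg ht0.le, ← Real.sqrt_eq_rpow]
      rw [h6, ← div_eq_mul_inv, div_le_one (Real.sqrt_pos.2 ht0)]
      exact h5
    have hAt := Aw_nonneg (t r)
    have hAs := Aw_nonneg (s r)
    calc Aw r * dv r ^ K * ((r : ℕ) : ℝ) ^ (-1 / 2 - θ)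
        ≤ (Aw (s r) ^ 2 * Aw (t r) ^ 3) * (dv (s r) ^ (2 * K) * dv (t r) ^ (3 * K)) *
          ((s r : ℝ) ^ (-1 - θ) * ((t r : ℝ) ^ (-1 / 2 : ℝ) * (t r : ℝ) ^ (-1 - θ))) := by
          rw [hA]
          gcongr
      _ = (Aw (s r) ^ 2 * dv (s r) ^ (2 * K) * (s r : ℝ) ^ (-1 - θ)) *
          ((Aw (t r) * (t r : ℝ) ^ (-1 / 2 : ℝ)) *
            (Aw (t r) ^ 2 * dv (t r) ^ (3 * K) * (t r : ℝ) ^ (-1 - θ))) := by ring
      _ ≤ (Aw (s r) ^ 2 * dv (s r) ^ (2 * K) * (s r : ℝ) ^ (-1 - θ)) *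
          (1 * (Aw (t r) ^ 2 * dv (t r) ^ (3 * K) * (t r : ℝ) ^ (-1 - θ))) := by
          gcongr
      _ = _ := by ring
  calc ∑' r : {r : ℕ // Powerful r}, ENNReal.ofReal (Aw r * dv r ^ K * (r : ℝ) ^ (-1 / 2 - θ))
      ≤ ∑' r : {r : ℕ // Powerful r}, G (φ r) := ENNReal.tsum_le_tsum hle
    _ ≤ ∑' p : ℕ × ℕ, G p := ENNReal.tsum_comp_le_tsum_of_injective hinj G
    _ = (∑' a : ℕ, ENNReal.ofReal (Aw a ^ 2 * dv a ^ (2 * K) * (a : ℝ) ^ (-1 - θ))) *
        ∑' b : ℕ, ENNReal.ofReal (Aw b ^ 2 * dv b ^ (3 * K) * (b : ℝ) ^ (-1 - θ)) := by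
        rw [← ENNReal.tsum_mul_right]
        simp only [G]
        rw [ENNReal.tsum_prod (f := fun a b =>
          ENNReal.ofReal (Aw a ^ 2 * dv a ^ (2 * K) * (a : ℝ) ^ (-1 - θ)) *
            ENNReal.ofReal (Aw b ^ 2 * dv b ^ (3 * K) * (b : ℝ) ^ (-1 - θ)))]
        apply tsum_congr
        intro a
        rw [ENNReal.tsum_mul_left]
    _ ≤ ENNReal.ofReal (C₁ * (1 / θ) ^ A₁) * ENNReal.ofReal (C₂ * (1 / θ) ^ A₂) :=
        mul_le_mul' (h₁ θ h0 h1) (h₂ θ h0 h1)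
    _ = ENNReal.ofReal (C₁ * C₂ * (1 / θ) ^ (A₁ + A₂)) := by
        rw [← ENNReal.ofReal_mul (by positivity)]
        congr 1
        rw [pow_add]; ring

end AW

/-- the divisor sums with the majorant `Aw` -/
structure StDivA : Prop where
  one : ∀ K : ℕ, ∃ C : ℝ, 0 < C ∧ ∃ A : ℕ, ∀ θ : ℝ, 0 < θ → θ ≤ 1 →
    ∑' n : ℕ, ENNReal.ofReal (Aw n ^ 2 * dv n ^ K * (n : ℝ) ^ (-1 - θ)) ≤
      ENNReal.ofReal (C * (1 / θ) ^ A)
  two : ∀ K : ℕ, ∃ C : ℝ, 0 < C ∧ ∃ A : ℕ, ∀ θ : ℝ, 0 < θ → θ ≤ 1 →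
    ∑' r : {r : ℕ // Powerful r}, ENNReal.ofReal (Aw r * dv r ^ K * (r : ℝ) ^ (-1 / 2 - θ)) ≤
      ENNReal.ofReal (C * (1 / θ) ^ A)

theorem pfDivA : StDivA := ⟨AW.div1, AW.div2⟩

end P004G
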