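import Vale.Agent.P004X.Aw

/-!
# P004X: the power saving in the coefficients, third order errors

* `dd`  : the exponent, `|ca p| ≤ p^{1-dd} / 100` at the good primes, `0 < dd ≤ 1/2`;
* `w3 p = wq p p^{-dd}` : majorant of the third order errors `(aw p p^{-1/2})³`, `wq p ²`,
  `p^{-3/2}`; `∑_{p ≥ x} w3 p ≤ K3 x^{-dd}`.
-/

open Real

namespace P004G

variable [Crv]

namespace AW

/-- the saving over the trivial bound -/
noncomputable def dd : ℝ := min (Classical.choose Crv.c_pow) (1 / 2)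

theorem dd_pos : 0 < dd := lt_min (Classical.choose_spec Crv.c_pow).1 (by norm_num)

theorem dd_le : dd ≤ 1 / 2 := min_le_right _ _

theorem ca_dd {p : ℕ} (hp : p.Prime) (hb : ¬ p ∣ bd) :
    |(ca p : ℝ)| ≤ (p : ℝ) ^ (1 - dd) / 100 := by
  refine ((Classical.choose_spec Crv.c_pow).2 p hp hb).trans ?_
  have h1 : (1 : ℝ) ≤ p := by exact_mod_cast hp.one_le
  have h2 : dd ≤ Classical.choose Crv.c_pow := min_le_left _ _
  gcongr

theorem lam_dd {p : ℕ} (hp : p.Prime) (hb : ¬ p ∣ bd) :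
    |lam p| * (p : ℝ) ^ (-(1 / 2) : ℝ) ≤ (p : ℝ) ^ (-dd) / 100 := by
  have hp0 : (0 : ℝ) < p := by exact_mod_cast hp.pos
  have hs : 0 < √(p : ℝ) := Real.sqrt_pos.2 hp0
  have h1 := ca_dd hp hb
  have h2 : |lam p| = |(ca p : ℝ)| * (p : ℝ) ^ (-(1 / 2) : ℝ) := by
    unfold lam
    rw [abs_div, abs_of_pos hs, Real.sqrt_eq_rpow, Real.rpow_neg hp0.le, div_eq_mul_inv]
  have h3 : (p : ℝ) ^ (-(1 / 2) : ℝ) * (p : ℝ) ^ (-(1 / 2) : ℝ) = (p : ℝ) ^ (-1 : ℝ) := by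
    rw [← Real.rpow_add hp0]; norm_num
  have h4 : (p : ℝ) ^ (1 - dd) * (p : ℝ) ^ (-1 : ℝ) = (p : ℝ) ^ (-dd) := by
    rw [← Real.rpow_add hp0]; congr 1; ring
  rw [h2, mul_assoc, h3]
  calc |(ca p : ℝ)| * (p : ℝ) ^ (-1 : ℝ) ≤ (p : ℝ) ^ (1 - dd) / 100 * (p : ℝ) ^ (-1 : ℝ) := by gcongr
    _ = (p : ℝ) ^ (1 - dd) * (p : ℝ) ^ (-1 : ℝ) / 100 := by ring
    _ = _ := by rw [h4]

theorem half_dd {p : ℕ} (hp : p.Prime) : (p : ℝ) ^ (-(1 / 2) : ℝ) ≤ (p : ℝ) ^ (-dd) :=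
  Real.rpow_le_rpow_of_exponent_le (by exact_mod_cast hp.one_le) (by linarith [dd_le])

theorem pow_dd_pos {p : ℕ} (hp : p.Prime) : 0 < (p : ℝ) ^ (-dd) :=
  Real.rpow_pos_of_pos (by exact_mod_cast hp.pos) _

theorem pow_dd_le_one {p : ℕ} (hp : p.Prime) : (p : ℝ) ^ (-dd) ≤ 1 :=
  Real.rpow_le_one_of_one_le_of_nonpos (by exact_mod_cast hp.one_le) (by linarith [dd_pos])

/-- `aw p p^{-1/2} ≤ 2 p^{-dd}` at every prime -/
theorem rho_pow {p : ℕ} (hp : p.Prime) : aw p * (p : ℝ) ^ (-(1 / 2) : ℝ) ≤ 2 * (p : ℝ) ^ (-dd) := by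
  have h1 := half_dd hp
  have h2 := pow_dd_pos hp
  by_cases hb : p ∣ bd
  · unfold aw
    rw [if_pos hb]
    linarith
  · have h3 := lam_dd hp hb
    unfold aw
    rw [if_neg hb, add_mul, one_mul]
    linarith

theorem rho_nonneg (p : ℕ) : 0 ≤ aw p * (p : ℝ) ^ (-(1 / 2) : ℝ) :=
  mul_nonneg (aw_nonneg p) (by positivity)

theorem rho_sq {p : ℕ} (hp : p.Prime) : (aw p * (p : ℝ) ^ (-(1 / 2) : ℝ)) ^ 2 = wq p := by
  have hp0 : (0 : ℝ) < p := by exact_mod_cast hp.pos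
  have h1 : ((p : ℝ) ^ (-(1 / 2) : ℝ)) ^ 2 = 1 / p := by
    rw [← Real.rpow_natCast, ← Real.rpow_mul (by positivity)]
    norm_num
    rw [Real.rpow_neg_one]
  rw [mul_pow, h1]
  unfold wq
  ring

theorem wq_pow {p : ℕ} (hp : p.Prime) : wq p ≤ 4 * (p : ℝ) ^ (-(2 * dd)) := by
  have hp0 : (0 : ℝ) < p := by exact_mod_cast hp.pos
  rw [← rho_sq hp]
  calc (aw p * (p : ℝ) ^ (-(1 / 2) : ℝ)) ^ 2 ≤ (2 * (p : ℝ) ^ (-dd)) ^ 2 :=
        pow_le_pow_left₀ (rho_nonneg p) (rho_pow hp) 2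
    _ = 4 * (p : ℝ) ^ (-(2 * dd)) := by
        rw [mul_pow, ← Real.rpow_natCast ((p : ℝ) ^ (-dd)), ← Real.rpow_mul hp0.le]
        norm_num
        congr 1
        ring

theorem wq_pow' {p : ℕ} (hp : p.Prime) : wq p ≤ 4 * (p : ℝ) ^ (-dd) := by
  refine (wq_pow hp).trans ?_
  have h1 : (p : ℝ) ^ (-(2 * dd)) ≤ (p : ℝ) ^ (-dd) :=
    Real.rpow_le_rpow_of_exponent_le (by exact_mod_cast hp.one_le) (by linarith [dd_pos])
  linarith

/-- the third order weight -/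
noncomputable def w3 (p : ℕ) : ℝ := wq p * (p : ℝ) ^ (-dd)

theorem w3_nonneg (p : ℕ) : 0 ≤ w3 p := mul_nonneg (wq_nonneg p) (by positivity)

theorem w3_le_wq {p : ℕ} (hp : p.Prime) : w3 p ≤ wq p :=
  mul_le_of_le_one_right (wq_nonneg p) (pow_dd_le_one hp)

theorem wq_sq_le {p : ℕ} (hp : p.Prime) : wq p ^ 2 ≤ 4 * w3 p := by
  unfold w3
  calc wq p ^ 2 = wq p * wq p := sq _
    _ ≤ wq p * (4 * (p : ℝ) ^ (-dd)) :=
        mul_le_mul_of_nonneg_left (wq_pow' hp) (wq_nonneg p)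
    _ = _ := by ring

theorem rho_cube_le {p : ℕ} (hp : p.Prime) :
    (aw p * (p : ℝ) ^ (-(1 / 2) : ℝ)) ^ 3 ≤ 2 * w3 p := by
  unfold w3
  calc (aw p * (p : ℝ) ^ (-(1 / 2) : ℝ)) ^ 3
      = (aw p * (p : ℝ) ^ (-(1 / 2) : ℝ)) ^ 2 * (aw p * (p : ℝ) ^ (-(1 / 2) : ℝ)) := by ring
    _ = wq p * (aw p * (p : ℝ) ^ (-(1 / 2) : ℝ)) := by rw [rho_sq hp]
    _ ≤ wq p * (2 * (p : ℝ) ^ (-dd)) := mul_le_mul_of_nonneg_left (rho_pow hp) (wq_nonneg p)
    _ = _ := by ring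

/-- `wq p p^{-1/2} ≤ w3 p` -/
theorem wq_half_le {p : ℕ} (hp : p.Prime) : wq p * (p : ℝ) ^ (-(1 / 2) : ℝ) ≤ w3 p :=
  mul_le_mul_of_nonneg_left (half_dd hp) (wq_nonneg p)

theorem p32_le {p : ℕ} (hp : p.Prime) : (p : ℝ) ^ (-3 / 2 : ℝ) ≤ w3 p := by
  have hp0 : (0 : ℝ) < p := by exact_mod_cast hp.pos
  refine le_trans ?_ (wq_half_le hp)
  have h1 : (p : ℝ) ^ (-3 / 2 : ℝ) = 1 / p * (p : ℝ) ^ (-(1 / 2) : ℝ) := by
    rw [one_div, ← Real.rpow_neg_one, ← Real.rpow_add hp0]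
    norm_num
  rw [h1]
  have := inv_le_wq hp
  gcongr

/-- `wq p / p ≤ w3 p` -/
theorem wq_div_le {p : ℕ} (hp : p.Prime) : wq p / p ≤ w3 p := by
  have hp0 : (0 : ℝ) < p := by exact_mod_cast hp.pos
  refine le_trans ?_ (wq_half_le hp)
  rw [div_eq_mul_inv, ← Real.rpow_neg_one]
  refine mul_le_mul_of_nonneg_left ?_ (wq_nonneg p)
  exact Real.rpow_le_rpow_of_exponent_le (by exact_mod_cast hp.one_le) (by norm_num)

theorem inv_sq_le {p : ℕ} (hp : p.Prime) : 1 / (p : ℝ) ^ 2 ≤ w3 p := by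
  have hp0 : (0 : ℝ) < p := by exact_mod_cast hp.pos
  refine le_trans ?_ (wq_div_le hp)
  rw [sq, ← div_div]
  have := inv_le_wq hp
  gcongr

/-- the constant in `sum_w3` -/
noncomputable def K3 : ℝ := 264 * kk * (1 + Real.log (1 + 2 / dd))

theorem K3_pos : 0 < K3 := by
  have h1 := kk_pos
  have h2 := dd_pos
  have h3 : 0 ≤ Real.log (1 + 2 / dd) := by
    apply Real.log_nonneg
    have : 0 ≤ 2 / dd := by positivity
    linarith
  unfold K3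
  positivity

/-- the sum of the third order weights over `p ≥ x` -/
theorem sum_w3 {S : Finset ℕ} (hS : ∀ p ∈ S, p.Prime) {x : ℝ} (hx : 2 ≤ x)
    (hS2 : ∀ p ∈ S, x ≤ p) : ∑ p ∈ S, w3 p ≤ K3 * x ^ (-dd) := by
  have h0 := dd_pos
  have hkk := kk_pos
  have h1 := P004X.sum_rpow_tail' dw hS hx h0 (by linarith [dd_le]) hS2
  have e1 : ∑ p ∈ S, w3 p = ∑ p ∈ S, (p : ℝ) ^ (-dd) * wq p :=
    Finset.sum_congr rfl fun p _ => mul_comm _ _
  rw [e1]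
  refine h1.trans ?_
  have hx0 : 0 < x := by linarith
  have hl : 1 / 2 ≤ Real.log x := by
    have h3 := Real.log_le_log (by norm_num) hx
    linarith [Real.log_two_gt_d9]
  have h2 : Real.exp (-dd * Real.log x) = x ^ (-dd) := by
    rw [Real.rpow_def_of_pos hx0]
    congr 1
    ring
  rw [h2]
  have h4 : 1 / (dd * Real.log x) ≤ 2 / dd := by
    rw [div_le_div_iff₀ (by positivity) h0]
    nlinarith
  have h5 : Real.log (1 + 1 / (dd * Real.log x)) ≤ Real.log (1 + 2 / dd) :=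
    Real.log_le_log (by positivity) (by linarith)
  have h6 : 0 < x ^ (-dd) := Real.rpow_pos_of_pos hx0 _
  have h7 : 0 ≤ Real.log (1 + 1 / (dd * Real.log x)) := by
    apply Real.log_nonneg
    have : 0 ≤ 1 / (dd * Real.log x) := by positivity
    linarith
  unfold K3
  calc kk * (264 * x ^ (-dd) * (1 + Real.log (1 + 1 / (dd * Real.log x))))
      ≤ kk * (264 * x ^ (-dd) * (1 + Real.log (1 + 2 / dd))) := by gcongr
    _ = _ := by ring

/-- the same with `x = e^u` -/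
theorem sum_w3_exp {S : Finset ℕ} (hS : ∀ p ∈ S, p.Prime) {u : ℝ} (hu : 1 ≤ u)
    (hS2 : ∀ p ∈ S, Real.exp u ≤ p) : ∑ p ∈ S, w3 p ≤ K3 * Real.exp (-(dd * u)) := by
  have h1 := sum_w3 hS (x := Real.exp u) (by
    have := Real.add_one_le_exp u
    linarith) hS2
  have h2 : Real.exp u ^ (-dd) = Real.exp (-(dd * u)) := by
    rw [← Real.exp_mul]
    congr 1
    ring
  rwa [h2] at h1

/-- the sum of all third order weights -/
theorem sum_w3_le {S : Finset ℕ} (hS : ∀ p ∈ S, p.Prime) : ∑ p ∈ S, w3 p ≤ K3 := by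
  refine (sum_w3 hS le_rfl fun p hp => by exact_mod_cast (hS p hp).two_le).trans ?_
  have h1 : (2 : ℝ) ^ (-dd) ≤ 1 :=
    Real.rpow_le_one_of_one_le_of_nonpos (by norm_num) (by linarith [dd_pos])
  have := K3_pos
  nlinarith

end AW

end P004G
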